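import Mathlib

/-!
Edge bound for finite graphs in which two vertices have at most one common neighbour and which
have no triangle, in terms of the maximum degree and the matching number.
-/

namespace Vale.Agent.P048

open Finset

variable {U : Type*} [Fintype U] [DecidableEq U] {H : SimpleGraph U} [DecidableRel H.Adj]

/-- An involution whose moved points lie in `X` and are matched along edges. -/
def Mat (H : SimpleGraph U) (X : Finset U) (f : U → U) : Prop :=
  ∀ x, f (f x) = x ∧ (f x ≠ x → x ∈ X ∧ H.Adj x (f x))

/-- The number of points moved by `f`. -/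
def mv (f : U → U) : ℕ := (univ.filter fun x => f x ≠ x).card

/-- Degree inside `X`. -/
def dg (H : SimpleGraph U) [DecidableRel H.Adj] (X : Finset U) (x : U) : ℕ :=
  (X.filter fun y => H.Adj x y).card

omit [Fintype U] [DecidableEq U] [DecidableRel H.Adj] in
theorem mat_id (X : Finset U) : Mat H X id := fun _ => ⟨rfl, fun h => absurd rfl h⟩

omit [Fintype U] [DecidableEq U] [DecidableRel H.Adj] in
theorem Mat.mono {X Y : Finset U} {f : U → U} (hf : Mat H X f) (h : X ⊆ Y) : Mat H Y f :=
  fun x => ⟨(hf x).1, fun hx => ⟨h ((hf x).2 hx).1, ((hf x).2 hx).2⟩⟩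

omit [DecidableRel H.Adj] in
theorem mat_even {X : Finset U} {f : U → U} (hf : Mat H X f) : Even (mv f) := by
  have h : ∑ _x ∈ univ.filter (fun x => f x ≠ x), (1 : ZMod 2) = 0 := by
    refine Finset.sum_involution (fun a _ => f a) ?_ ?_ ?_ ?_
    · intro a _
      decide
    · intro a ha _
      exact (mem_filter.1 ha).2
    · intro a ha
      simp only [mem_filter, mem_univ, true_and] at ha ⊢
      rw [(hf a).1]
      exact Ne.symm ha
    · intro a _
      exact (hf a).1
  rw [sum_const, nsmul_one, ZMod.natCast_eq_zero_iff_even] at h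
  exact h

omit [DecidableRel H.Adj] in
/-- A largest matching inside `X`. -/
theorem exists_max (H : SimpleGraph U) (X : Finset U) :
    ∃ f, Mat H X f ∧ ∀ g, Mat H X g → mv g ≤ mv f := by
  classical
  have hne : ((univ : Finset (U → U)).filter fun f => Mat H X f).Nonempty :=
    ⟨id, by simp [mat_id]⟩
  obtain ⟨f, hf, hm⟩ := exists_max_image _ mv hne
  exact ⟨f, (mem_filter.1 hf).2, fun g hg => hm g (by simp [hg])⟩

omit [Fintype U] [DecidableRel H.Adj] in
/-- Replace `f` by `g` on a set invariant under both. -/
theorem mat_piece {X : Finset U} {f g : U → U} (hf : Mat H X f) (hg : Mat H X g) (O : Finset U)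
    (hfO : ∀ x ∈ O, f x ∈ O) (hgO : ∀ x ∈ O, g x ∈ O) :
    Mat H X (fun x => if x ∈ O then g x else f x) := by
  intro x
  by_cases h : x ∈ O
  · simp only [if_pos h, if_pos (hgO x h)]
    exact hg x
  · have : f x ∉ O := fun h' => h (by rw [← (hf x).1]; exact hfO _ h')
    simp only [if_neg h, if_neg this]
    exact hf x

theorem mv_piece (f g : U → U) (O : Finset U) :
    mv (fun x => if x ∈ O then g x else f x) + (O.filter fun x => f x ≠ x).card
      = mv f + (O.filter fun x => g x ≠ x).card := by
  have key : ∀ h : U → U, mv h = (O.filter fun x => h x ≠ x).card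
      + ((univ \ O).filter fun x => h x ≠ x).card := by
    intro h
    rw [← card_union_of_disjoint (disjoint_filter_filter disjoint_sdiff), ← filter_union,
      union_sdiff_of_subset (subset_univ O)]
    rfl
  have e1 : (O.filter fun x => (if x ∈ O then g x else f x) ≠ x)
      = O.filter fun x => g x ≠ x := filter_congr fun x hx => by rw [if_pos hx]
  have e2 : ((univ \ O).filter fun x => (if x ∈ O then g x else f x) ≠ x)
      = (univ \ O).filter fun x => f x ≠ x :=
    filter_congr fun x hx => by rw [if_neg (mem_sdiff.1 hx).2]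
  rw [key, key f, e1, e2]
  omega

omit [DecidableRel H.Adj] in
/-- Two adjacent points missed by a matching give a larger one. -/
theorem mat_augment {X : Finset U} {f : U → U} (hf : Mat H X f) {a b : U} (ha : a ∈ X)
    (hb : b ∈ X) (hab : H.Adj a b) (fa : f a = a) (fb : f b = b) :
    ∃ g, Mat H X g ∧ mv f < mv g := by
  have hne : a ≠ b := hab.ne
  refine ⟨fun x => if x ∈ ({a, b} : Finset U) then Equiv.swap a b x else f x,
    mat_piece hf ?_ _ ?_ ?_, ?_⟩
  · intro x
    refine ⟨Equiv.swap_apply_self a b x, fun hx => ?_⟩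
    rcases eq_or_ne x a with rfl | h1
    · exact ⟨ha, by rw [Equiv.swap_apply_left]; exact hab⟩
    rcases eq_or_ne x b with rfl | h2
    · exact ⟨hb, by rw [Equiv.swap_apply_right]; exact hab.symm⟩
    exact absurd (Equiv.swap_apply_of_ne_of_ne h1 h2) hx
  · intro x hx
    simp only [mem_insert, mem_singleton] at hx ⊢
    rcases hx with rfl | rfl
    · exact Or.inl fa
    · exact Or.inr fb
  · intro x hx
    simp only [mem_insert, mem_singleton] at hx ⊢
    rcases hx with rfl | rfl <;> simp
  · have h := mv_piece f (Equiv.swap a b : U → U) {a, b}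
    have e0 : (({a, b} : Finset U).filter fun x => f x ≠ x) = ∅ := by
      ext x
      simp
      rintro (rfl | rfl) <;> assumption
    have e1 : (({a, b} : Finset U).filter fun x => Equiv.swap a b x ≠ x) = {a, b} := by
      apply filter_true_of_mem
      intro x hx
      simp only [mem_insert, mem_singleton] at hx
      rcases hx with rfl | rfl <;> simp [hne, hne.symm]
    rw [e0, e1, card_empty, card_pair hne, add_zero] at h
    omega

omit [DecidableRel H.Adj] in
/-- Gallai's exchange: a largest matching missing `w` that loses at most one point missed by `f`. -/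
theorem exchange {X : Finset U} {f g : U → U} (hf : Mat H X f) (hg : Mat H X g)
    (fmax : ∀ h, Mat H X h → mv h ≤ mv f) (gmax : ∀ h, Mat H X h → mv h ≤ mv g)
    {w : U} (gw : g w = w) :
    ∃ h, Mat H X h ∧ (∀ k, Mat H X k → mv k ≤ mv h) ∧ h w = w ∧
      ∀ u v, f u = u → f v = v → u ≠ v → h u = u ∨ h v = v := by
  classical
  let r : U → U := f ∘ g
  have rinj : Function.Injective r :=
    (Function.Involutive.injective fun x => (hf x).1).comp
      (Function.Involutive.injective fun x => (hg x).1)
  let p := Function.minimalPeriod r w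
  have hp : 0 < p :=
    Function.minimalPeriod_pos_of_mem_periodicPts (rinj.mem_periodicPts w)
  have hper : ∀ j, r^[j] w = r^[j % p] w := fun j =>
    (Function.iterate_mod_minimalPeriod_eq).symm
  let O := (range p).image fun j => r^[j] w
  have hO : ∀ j, r^[j] w ∈ O := fun j =>
    mem_image.2 ⟨j % p, mem_range.2 (Nat.mod_lt _ hp), (hper j).symm⟩
  have rgr : ∀ y, r (g (r y)) = g y := by
    intro y
    simp only [r, Function.comp, (hg _).1, (hf _).1]
  have rev : ∀ j, r^[j] (g (r^[j] w)) = w := by
    intro j
    induction j with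
    | zero => simpa using gw
    | succ j ih =>
      rw [Function.iterate_succ_apply, Function.iterate_succ_apply' r j w, rgr]
      exact ih
  have gval : ∀ j, g (r^[j] w) = r^[p - j % p] w := by
    intro j
    have hj : j % p < p := Nat.mod_lt _ hp
    apply rinj.iterate (j % p)
    rw [hper j, rev, ← Function.iterate_add_apply,
      show j % p + (p - j % p) = p by omega]
    exact Function.iterate_minimalPeriod.symm
  have fval : ∀ j, f (r^[j] w) = r^[p - j % p + 1] w := by
    intro j
    rw [Function.iterate_succ_apply', ← gval]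
    simp only [r, Function.comp, (hg _).1]
  have gO : ∀ x ∈ O, g x ∈ O := by
    intro x hx
    obtain ⟨j, -, rfl⟩ := mem_image.1 hx
    rw [gval]
    exact hO _
  have fO : ∀ x ∈ O, f x ∈ O := by
    intro x hx
    obtain ⟨j, -, rfl⟩ := mem_image.1 hx
    rw [fval]
    exact hO _
  have hmod : ∀ a b, r^[a] w = r^[b] w → a % p = b % p := by
    intro a b h
    rw [hper a, hper b] at h
    exact (Function.iterate_eq_iterate_iff_of_lt_minimalPeriod (Nat.mod_lt _ hp)
      (Nat.mod_lt _ hp)).1 h
  have one : ∀ x ∈ O, ∀ y ∈ O, f x = x → f y = y → x = y := by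
    intro x hx y hy fx fy
    obtain ⟨i, hi, rfl⟩ := mem_image.1 hx
    obtain ⟨j, hj, rfl⟩ := mem_image.1 hy
    rw [mem_range] at hi hj
    rw [fval, Nat.mod_eq_of_lt hi] at fx
    rw [fval, Nat.mod_eq_of_lt hj] at fy
    have h1 := hmod _ _ fx
    have h2 := hmod _ _ fy
    rw [Nat.mod_eq_of_lt hi] at h1
    rw [Nat.mod_eq_of_lt hj] at h2
    have d1 := Nat.mod_add_div (p - i + 1) p
    have d2 := Nat.mod_add_div (p - j + 1) p
    rw [h1] at d1
    rw [h2] at d2
    have b1 : (p - i + 1) / p ≤ 2 := Nat.div_le_of_le_mul (by omega)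
    have b2 : (p - j + 1) / p ≤ 2 := Nat.div_le_of_le_mul (by omega)
    have : i = j := by
      interval_cases hq1 : (p - i + 1) / p <;> interval_cases hq2 : (p - j + 1) / p <;> omega
    rw [this]
  have hh := mat_piece hf hg O fO gO
  refine ⟨fun x => if x ∈ O then g x else f x, hh, ?_, ?_, ?_⟩
  · intro k hk
    have e1 := gmax _ (mat_piece hg hf O gO fO)
    have e2 := mv_piece g f O
    have e3 := mv_piece f g O
    have e4 := fmax k hk
    omega
  · have : w ∈ O := hO 0
    simp [this, gw]
  · intro u v fu fv huv
    by_cases hu : u ∈ O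
    · have hv : v ∉ O := fun hv => huv (one u hu v hv fu fv)
      right
      simp [hv, fv]
    · left
      simp [hu, fu]

/-- `u` reaches `v` by a walk of length `k` inside `X`. -/
def Rch (H : SimpleGraph U) (X : Finset U) : ℕ → U → U → Prop
  | 0, u, v => u = v
  | k + 1, u, v => ∃ w ∈ X, H.Adj u w ∧ Rch H X k w v

omit [DecidableRel H.Adj] in
/-- In a connected graph where every point is missed by a largest matching, none misses two. -/
theorem gallai {X : Finset U} (hmiss : ∀ x ∈ X, ∃ g, Mat H X g ∧
      (∀ k, Mat H X k → mv k ≤ mv g) ∧ g x = x) :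
    ∀ k u v, u ∈ X → v ∈ X → u ≠ v → Rch H X k u v → ∀ f, Mat H X f →
      (∀ h, Mat H X h → mv h ≤ mv f) → f u = u → f v = v → False := by
  intro k
  induction k with
  | zero => exact fun u v _ _ huv h => absurd h huv
  | succ k ih =>
    intro u v hu hv huv h f hf fmax fu fv
    obtain ⟨w, hw, huw, hwv⟩ := h
    by_cases hwv' : w = v
    · obtain ⟨g, hg, hlt⟩ := mat_augment hf hu hv (hwv' ▸ huw) fu fv
      exact absurd (fmax g hg) (not_le.2 hlt)
    obtain ⟨g, hg, gmax, gw⟩ := hmiss w hw
    obtain ⟨h', hh, hmax, hw', hor⟩ := exchange hf hg fmax gmax gw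
    rcases hor u v fu fv huv with hu' | hv'
    · obtain ⟨g', hg', hlt⟩ := mat_augment hh hu hw huw hu' hw'
      exact absurd (hmax g' hg') (not_le.2 hlt)
    · exact ih w v hw hv hwv' hwv h' hh hmax hw' hv'

omit [Fintype U] in
theorem sum_dg_erase (X : Finset U) {x : U} (hx : x ∈ X) :
    ∑ y ∈ X, dg H X y = ∑ y ∈ X.erase x, dg H (X.erase x) y + 2 * dg H X x := by
  have key : ∀ y, dg H X y = dg H (X.erase x) y + if H.Adj y x then 1 else 0 := by
    intro y
    unfold dg
    rw [filter_erase]
    by_cases h : H.Adj y x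
    · have hm : x ∈ X.filter fun z => H.Adj y z := mem_filter.2 ⟨hx, h⟩
      rw [if_pos h, card_erase_add_one hm]
    · rw [if_neg h, erase_eq_of_notMem (fun hm => h (mem_filter.1 hm).2), add_zero]
  rw [← add_sum_erase _ _ hx, sum_congr rfl fun y _ => key y, sum_add_distrib]
  have hdx : dg H X x = ∑ y ∈ X.erase x, if H.Adj y x then 1 else 0 := by
    rw [sum_boole, Nat.cast_id]
    unfold dg
    congr 1
    ext y
    simp only [mem_filter, mem_erase]
    exact ⟨fun h => ⟨⟨h.2.ne.symm, h.1⟩, h.2.symm⟩, fun h => ⟨h.1.2, h.2.symm⟩⟩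
  omega

omit [Fintype U] in
/-- Cauchy–Schwarz bound when two vertices have at most one common neighbour and no triangle. -/
theorem sum_dg_sq (X : Finset U)
    (htri : ∀ a b c, H.Adj a b → H.Adj b c → H.Adj a c → False)
    (hc4 : ∀ a b c d, a ≠ b → H.Adj a c → H.Adj b c → H.Adj a d → H.Adj b d → c = d) :
    (∑ y ∈ X, dg H X y) ^ 2 ≤ X.card * (X.card * (X.card - 1)) := by
  refine le_trans (sq_sum_le_card_mul_sum_sq) (Nat.mul_le_mul_left _ ?_)
  have h : ∀ y ∈ X, ∑ z ∈ X.filter (fun z => H.Adj y z), dg H X z ≤ X.card - 1 := by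
    intro y hy
    -- neighbours of neighbours, one witness for each
    calc ∑ z ∈ X.filter (fun z => H.Adj y z), dg H X z
        = ∑ z ∈ X.filter (fun z => H.Adj y z),
            (1 + ((X.erase y).filter fun t => H.Adj z t).card) := by
          refine sum_congr rfl fun z hz => ?_
          unfold dg
          rw [filter_erase, add_comm, card_erase_add_one]
          exact mem_filter.2 ⟨hy, (mem_filter.1 hz).2.symm⟩
      _ = (X.filter fun z => H.Adj y z).card
            + ((X.filter fun z => H.Adj y z).biUnion
                fun z => (X.erase y).filter fun t => H.Adj z t).card := by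
          rw [sum_add_distrib, card_biUnion]
          · simp
          · intro a ha b hb hab
            simp only [Function.onFun, disjoint_left, mem_filter, mem_erase]
            intro t h1 h2
            exact hab (hc4 y t a b (Ne.symm h1.1.1) (mem_filter.1 ha).2 h1.2.symm
              (mem_filter.1 hb).2 h2.2.symm)
      _ ≤ (X.erase y).card := by
          rw [← card_union_of_disjoint]
          · apply card_le_card
            intro t ht
            simp only [mem_union, mem_filter, mem_biUnion, mem_erase] at ht ⊢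
            rcases ht with ⟨h1, h2⟩ | ⟨z, _, ⟨h1, _⟩⟩
            · exact ⟨h2.ne.symm, h1⟩
            · exact h1
          · simp only [disjoint_left, mem_filter, mem_biUnion, mem_erase, not_exists, not_and]
            intro t ht z hz _ hzt
            exact htri y z t hz.2 hzt ht.2
      _ = X.card - 1 := card_erase_of_mem hy
  calc ∑ z ∈ X, dg H X z ^ 2 = ∑ z ∈ X, ∑ y ∈ X.filter (fun y => H.Adj z y), dg H X z := by
        refine sum_congr rfl fun z _ => ?_
        rw [sum_const, smul_eq_mul, sq]
        rfl
    _ = ∑ y ∈ X, ∑ z ∈ X.filter (fun z => H.Adj y z), dg H X z := by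
        apply sum_comm'
        intro z y
        simp only [mem_filter]
        exact ⟨fun h => ⟨⟨h.1, h.2.2.symm⟩, h.2.1⟩, fun h => ⟨h.1.1, h.2, h.1.2.symm⟩⟩
    _ ≤ X.card * (X.card - 1) := by
        rw [← smul_eq_mul, ← sum_const]
        exact sum_le_sum h

/-- If the maximum degree is at most `D` and every matching moves at most `2 * D` points, then the
degree sum is at most `D` times the number of points moved by some matching. -/
theorem edge_bound {D : ℕ} (hD : 3 ≤ D)
    (htri : ∀ a b c, H.Adj a b → H.Adj b c → H.Adj a c → False)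
    (hc4 : ∀ a b c d, a ≠ b → H.Adj a c → H.Adj b c → H.Adj a d → H.Adj b d → c = d)
    (hdeg : ∀ (X : Finset U) x, dg H X x ≤ D)
    (hnu : ∀ (X : Finset U) f, Mat H X f → mv f ≤ 2 * D) (X : Finset U) :
    ∃ f, Mat H X f ∧ ∑ x ∈ X, dg H X x ≤ D * mv f := by
  classical
  induction X using Finset.strongInduction with
  | _ X ih =>
    obtain ⟨f, hf, fmax⟩ := exists_max H X
    by_cases hA : ∃ x ∈ X, ∀ g, Mat H X g → (∀ k, Mat H X k → mv k ≤ mv g) → g x ≠ x
    · obtain ⟨x, hx, hall⟩ := hA
      obtain ⟨g, hg, hle⟩ := ih _ (erase_ssubset hx)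
      refine ⟨f, hf, ?_⟩
      have hgX : Mat H X g := hg.mono (erase_subset _ _)
      have gx : g x = x := by
        by_contra h
        exact (mem_erase.1 ((hg x).2 h).1).1 rfl
      have hlt : mv g < mv f := by
        by_contra h
        exact hall g hgX (fun k hk => (fmax k hk).trans (not_lt.1 h)) gx
      obtain ⟨a, ha⟩ := mat_even hgX
      obtain ⟨b, hb⟩ := mat_even hf
      rw [sum_dg_erase X hx]
      calc _ ≤ D * mv g + 2 * D := by
              have := hdeg X x
              omega
        _ = D * (mv g + 2) := by ring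
        _ ≤ D * mv f := Nat.mul_le_mul_left _ (by omega)
    push Not at hA
    have hmiss : ∀ x ∈ X, ∃ g, Mat H X g ∧ (∀ k, Mat H X k → mv k ≤ mv g) ∧ g x = x := hA
    by_cases hconn : ∀ u ∈ X, ∀ v ∈ X, ∃ k, Rch H X k u v
    · refine ⟨f, hf, ?_⟩
      have hone : (X.filter fun x => f x = x).card ≤ 1 := by
        rw [card_le_one]
        intro u hu v hv
        by_contra huv
        obtain ⟨hu, fu⟩ := mem_filter.1 hu
        obtain ⟨hv, fv⟩ := mem_filter.1 hv
        obtain ⟨k, hk⟩ := hconn u hu v hv
        exact gallai hmiss k u v hu hv huv hk f hf fmax fu fv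
      have hN : X.card ≤ mv f + 1 := by
        have := card_filter_add_card_filter_not (s := X) (fun x => f x = x)
        have h2 : (X.filter fun x => ¬ f x = x).card ≤ mv f :=
          card_le_card (fun x hx => by simp_all)
        omega
      obtain ⟨a, ha⟩ := mat_even hf
      have hk2 := hnu X f hf
      have hsq := sum_dg_sq X htri hc4
      rw [ha] at hN hk2 ⊢
      rcases Nat.eq_zero_or_pos a with rfl | hapos
      · have : X.card * (X.card - 1) = 0 := by
          rcases Nat.le_one_iff_eq_zero_or_eq_one.1 hN with h | h <;> simp [h]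
        rw [this, mul_zero] at hsq
        have := Nat.le_zero.1 hsq
        rw [sq, mul_self_eq_zero] at this
        omega
      · have h1 : X.card * (X.card * (X.card - 1)) ≤ (2 * a + 1) * ((2 * a + 1) * (2 * a)) :=
          Nat.mul_le_mul (by omega) (Nat.mul_le_mul (by omega) (by omega))
        have h2 : (2 * a + 1) * ((2 * a + 1) * (2 * a)) ≤ (D * (a + a)) ^ 2 := by
          have key : (2 * a + 1) ^ 2 ≤ 2 * a * D ^ 2 := by
            rcases Nat.lt_or_ge a 3 with h | h
            · interval_cases a <;> nlinarith
            · have hDD : a ^ 2 ≤ D ^ 2 := Nat.pow_le_pow_left (by omega) 2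
              nlinarith [Nat.mul_le_mul_right (a ^ 2) h, Nat.mul_le_mul_left (2 * a) hDD]
          calc (2 * a + 1) * ((2 * a + 1) * (2 * a)) = 2 * a * (2 * a + 1) ^ 2 := by ring
            _ ≤ 2 * a * (2 * a * D ^ 2) := Nat.mul_le_mul_left _ key
            _ = _ := by ring
        exact (Nat.pow_le_pow_iff_left (by norm_num)).1 (hsq.trans (h1.trans h2))
    · push Not at hconn
      obtain ⟨u, hu, v, hv, hno⟩ := hconn
      let C := X.filter fun x => ∃ k, Rch H X k x v
      let C' := X.filter fun x => ¬ ∃ k, Rch H X k x v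
      have hC : C ⊂ X :=
        filter_ssubset.2 ⟨u, hu, fun ⟨k, hk⟩ => hno k hk⟩
      have hC' : C' ⊂ X := filter_ssubset.2 ⟨v, hv, fun h => h ⟨0, rfl⟩⟩
      have cross : ∀ a ∈ C, ∀ b ∈ C', ¬ H.Adj b a := by
        intro a ha b hb hab
        obtain ⟨hb, hbn⟩ := mem_filter.1 hb
        obtain ⟨ha, k, hk⟩ := mem_filter.1 ha
        exact hbn ⟨k + 1, a, ha, hab, hk⟩
      obtain ⟨g, hg, gle⟩ := ih C hC
      obtain ⟨g', hg', gle'⟩ := ih C' hC'
      have hgC : ∀ x ∉ C, g x = x := fun x hx => by
        by_contra h
        exact hx ((hg x).2 h).1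
      have hgC' : ∀ x ∉ C', g' x = x := fun x hx => by
        by_contra h
        exact hx ((hg' x).2 h).1
      have hdisj : Disjoint C C' := disjoint_filter_filter_not _ _ _
      have inv : ∀ x ∈ C, g x ∈ C := fun x hx => by
        by_cases h : g x = x
        · rwa [h]
        · refine ((hg (g x)).2 ?_).1
          rw [(hg x).1]
          exact Ne.symm h
      have inv' : ∀ x ∈ C, g' x ∈ C := fun x hx => by
        rwa [hgC' x (disjoint_left.1 hdisj hx)]
      refine ⟨fun x => if x ∈ C then g x else g' x,
        mat_piece (hg'.mono (filter_subset _ _)) (hg.mono (filter_subset _ _)) C inv' inv, ?_⟩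
      have hmv := mv_piece g' g C
      have z : (C.filter fun x => g' x ≠ x) = ∅ :=
        filter_false_of_mem fun x hx => not_not.2 (hgC' x (disjoint_left.1 hdisj hx))
      have z2 : (C.filter fun x => g x ≠ x).card = mv g := by
        unfold mv
        congr 1
        ext x
        simp only [mem_filter, mem_univ, true_and, and_iff_right_iff_imp]
        exact fun h => ((hg x).2 h).1
      rw [z, z2, card_empty, add_zero] at hmv
      rw [hmv, mul_add]
      have hsplit : ∀ (A B : Finset U), A ∪ B = X → (∀ a ∈ A, ∀ b ∈ B, ¬ H.Adj a b) →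
          ∀ a ∈ A, dg H X a = dg H A a := by
        intro A B hAB hc a ha
        unfold dg
        congr 1
        ext y
        simp only [mem_filter, ← hAB, mem_union]
        exact ⟨fun h => ⟨h.1.resolve_right fun hb => hc a ha y hb h.2, h.2⟩,
          fun h => ⟨Or.inl h.1, h.2⟩⟩
      have hun : C ∪ C' = X := by
        ext x
        simp only [C, C', mem_union, mem_filter]
        tauto
      rw [← hun, sum_union hdisj, hun,
        sum_congr rfl (hsplit C C' hun fun a ha b hb h => cross a ha b hb h.symm),
        sum_congr rfl (hsplit C' C ((union_comm _ _).trans hun) fun b hb a ha => cross a ha b hb)]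
      exact (Nat.add_le_add gle' gle).trans_eq' (Nat.add_comm _ _)

end Vale.Agent.P048
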