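import Mathlib

/-!
Cycles of prescribed length built from lists, and paths in graphs without independent triples.
-/

namespace Vale.Agent.P048

open Finset

variable {V : Type*} [DecidableEq V] {G : SimpleGraph V}

/-- `G` has a cycle of length exactly `m`. -/
def Cyc (G : SimpleGraph V) (m : ℕ) : Prop :=
  ∃ (v : V) (p : G.Walk v v), p.IsCycle ∧ p.length = m

omit [DecidableEq V] in
theorem walk_of_list : ∀ (l : List V) (a : V), (a :: l).IsChain G.Adj →
    ∃ p : G.Walk a ((a :: l).getLast (by simp)), p.support = a :: l := by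
  intro l
  induction l with
  | nil => exact fun a _ => ⟨SimpleGraph.Walk.nil, rfl⟩
  | cons b l ih =>
    intro a h
    rw [List.isChain_cons_cons] at h
    obtain ⟨p, hp⟩ := ih b h.2
    refine ⟨(SimpleGraph.Walk.cons h.1 p).copy rfl (List.getLast_cons (by simp)).symm, ?_⟩
    simp [hp]

omit [DecidableEq V] in
theorem cyc_of_list {m : ℕ} (hm : 3 ≤ m) (a : V) (l : List V) (hl : (a :: l).length = m)
    (hn : (a :: l).Nodup) (hc : (a :: l).IsChain G.Adj)
    (hlast : ∀ z ∈ (a :: l).getLast?, G.Adj z a) : Cyc G m := by
  obtain ⟨p, hp⟩ := walk_of_list l a hc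
  have hz : G.Adj ((a :: l).getLast (by simp)) a := hlast _ (by simp [List.getLast?_eq_some_getLast])
  have hpath : p.IsPath := by rwa [SimpleGraph.Walk.isPath_def, hp]
  have hlen : p.length + 1 = m := by rw [← p.length_support, hp, hl]
  refine ⟨_, SimpleGraph.Walk.cons hz p, ?_, by simpa using hlen⟩
  rw [SimpleGraph.Walk.cons_isCycle_iff]
  refine ⟨hpath, fun he => ?_⟩
  generalize hb : (a :: l).getLast (by simp) = b at p hz he hpath hlen
  cases p with
  | nil => simp at he
  | cons hadj q =>
    rename_i w
    rw [SimpleGraph.Walk.cons_isPath_iff] at hpath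
    rw [SimpleGraph.Walk.edges_cons, List.mem_cons] at he
    rcases he with he | he
    · have hbw : b = w := by
        rcases Sym2.eq_iff.1 he with ⟨h1, _⟩ | ⟨h1, _⟩
        · exact absurd h1 hz.ne
        · exact h1
      subst hbw
      have := (SimpleGraph.Walk.isPath_iff_nil.1 hpath.1).eq_nil
      simp [this] at hlen
      omega
    · exact hpath.2 (SimpleGraph.Walk.snd_mem_support_of_mem_edges q he)

omit [DecidableEq V] in
theorem chain_of_clique {Q : Finset V} (hQ : ∀ x ∈ Q, ∀ y ∈ Q, x ≠ y → G.Adj x y) {l : List V}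
    (hn : l.Nodup) (hsub : ∀ x ∈ l, x ∈ Q) : l.IsChain G.Adj := by
  apply List.Pairwise.isChain
  exact hn.imp_of_mem fun ha hb hab => hQ _ (hsub _ ha) _ (hsub _ hb) hab

omit [DecidableEq V] in
theorem cyc_of_clique {m : ℕ} (hm : 3 ≤ m) {Q : Finset V} (hQ : ∀ x ∈ Q, ∀ y ∈ Q, x ≠ y → G.Adj x y)
    (hcard : m ≤ Q.card) : Cyc G m := by
  obtain ⟨T, hT, hTc⟩ := exists_subset_card_eq hcard
  have hlen := T.length_toList
  cases hl : T.toList with
  | nil => rw [hl] at hlen; simp at hlen; omega
  | cons a l =>
    have hn : (a :: l).Nodup := hl ▸ T.nodup_toList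
    have hs : ∀ x ∈ a :: l, x ∈ Q := fun x hx => hT (mem_toList.1 (hl ▸ hx))
    rw [hl] at hlen
    refine cyc_of_list hm a l (by omega) hn (chain_of_clique hQ hn hs) fun z hz => ?_
    have hz' := List.mem_of_getLast? hz
    refine hQ z (hs z hz') a (hs a (by simp)) ?_
    rintro rfl
    have hl0 : l ≠ [] := by rintro rfl; simp at hlen; omega
    rw [List.getLast?_cons_of_ne_nil hl0] at hz
    exact (List.nodup_cons.1 hn).1 (List.mem_of_getLast? hz)

/-- In a set without independent triples and without a long path, adjacency is transitive. -/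
theorem adj_trans_of_no_path {A : Finset V} {k : ℕ} (hk : k ≤ A.card)
    (htri : ∀ a ∈ A, ∀ b ∈ A, ∀ c ∈ A, a ≠ b → a ≠ c → b ≠ c → G.Adj a b ∨ G.Adj a c ∨ G.Adj b c)
    (hno : ∀ l : List V, l.Nodup → (∀ x ∈ l, x ∈ A) → l.IsChain G.Adj → l.length ≠ k) :
    ∀ a ∈ A, ∀ b ∈ A, ∀ c ∈ A, G.Adj a b → G.Adj b c → a ≠ c → G.Adj a c := by
  classical
  let Pr : ℕ → Prop := fun j =>
    ∃ l : List V, l.Nodup ∧ (∀ x ∈ l, x ∈ A) ∧ l.IsChain G.Adj ∧ l.length = j
  have hP0 : Pr 0 := ⟨[], by simp⟩
  obtain ⟨P, hPn, hPs, hPc, hPl⟩ : Pr (Nat.findGreatest Pr A.card) :=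
    Nat.findGreatest_spec (Nat.zero_le _) hP0
  have hmax : ∀ l : List V, l.Nodup → (∀ x ∈ l, x ∈ A) → l.IsChain G.Adj →
      l.length ≤ P.length := by
    intro l h1 h2 h3
    have hle : l.length ≤ A.card := by
      rw [← List.toFinset_card_of_nodup h1]
      exact card_le_card fun x hx => h2 x (List.mem_toFinset.1 hx)
    rw [hPl]
    exact Nat.le_findGreatest hle ⟨l, h1, h2, h3, rfl⟩
  have hlt : P.length < k := by
    by_contra h
    refine hno (P.take k) (hPn.sublist (List.take_sublist _ _))
      (fun x hx => hPs x (List.mem_of_mem_take hx)) (hPc.take k) ?_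
    rw [List.length_take]
    omega
  intro a ha b hb c hc hab hbc hac
  cases hP : P with
  | nil =>
    have := hmax [a] (by simp) (by simpa using ha) (by simp)
    simp [hP] at this
  | cons p tl =>
    rw [hP] at hPn hPs hPc hmax hlt
    obtain ⟨q, hq⟩ : ∃ q, (p :: tl).getLast? = some q := ⟨_, List.getLast?_eq_some_getLast (by simp)⟩
    have hqmem := List.mem_of_getLast? hq
    have out : ∀ w ∈ A, w ∉ p :: tl → ∀ x ∈ p :: tl, ¬ G.Adj w x := by
      intro w hw hwP x hx hwx
      have h1 : ¬ G.Adj w p := fun h => by
        have := hmax (w :: p :: tl) (List.nodup_cons.2 ⟨hwP, hPn⟩)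
          (by simpa [hw] using hPs) (List.isChain_cons_cons.2 ⟨h, hPc⟩)
        simp at this
      by_cases hqp : G.Adj q p
      · obtain ⟨l1, l2, hsplit⟩ := List.append_of_mem hx
        have hc2 := hPc
        rw [hsplit, List.isChain_append] at hc2
        have hperm : ((x :: l2) ++ l1).Perm (p :: tl) := by
          rw [hsplit]
          exact List.perm_append_comm
        have := hmax (w :: ((x :: l2) ++ l1))
          (List.nodup_cons.2 ⟨fun h => hwP (hperm.mem_iff.1 h), hperm.nodup_iff.2 hPn⟩)
          (fun z hz => by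
            rcases List.mem_cons.1 hz with rfl | hz
            · exact hw
            · exact hPs z (hperm.mem_iff.1 hz))
          (by
            rw [List.cons_append, List.isChain_cons_cons, ← List.cons_append, List.isChain_append]
            refine ⟨hwx, hc2.2.1, hc2.1, fun u hu v hv => ?_⟩
            cases l1 with
            | nil => simp at hv
            | cons p' l1' =>
              simp only [List.cons_append, List.cons.injEq] at hsplit
              simp only [List.head?_cons, Option.mem_some] at hv
              rw [hsplit.2, ← List.cons_append, List.getLast?_append_of_ne_nil _ (by simp)] at hq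
              rw [Option.mem_def, hq, Option.some.injEq] at hu
              subst hu
              rw [← hv, ← hsplit.1]
              exact hqp)
        rw [List.length_cons, hperm.length_eq] at this
        omega
      · have h2 : ¬ G.Adj w q := fun h => by
          have := hmax ((p :: tl) ++ [w])
            (List.nodup_append.2 ⟨hPn, by simp, fun u hu v hv => by
              rw [List.mem_singleton] at hv; subst hv; exact fun e => hwP (e ▸ hu)⟩)
            (fun z hz => by
              rcases List.mem_append.1 hz with hz | hz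
              · exact hPs z hz
              · rw [List.mem_singleton] at hz; exact hz ▸ hw)
            (by
              rw [List.isChain_append]
              refine ⟨hPc, by simp, fun u hu v hv => ?_⟩
              rw [Option.mem_def, hq, Option.some.injEq] at hu
              simp only [List.head?_cons, Option.mem_some] at hv
              rw [← hu, ← hv]
              exact h.symm)
          simp at this
        by_cases hpq : p = q
        · cases tl with
          | nil => exact h1 (by simpa [List.mem_singleton.1 hx] using hwx)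
          | cons p' tl' =>
            rw [List.getLast?_cons_cons] at hq
            exact (List.nodup_cons.1 hPn).1 (hpq ▸ List.mem_of_getLast? hq)
        rcases htri w hw p (hPs p (by simp)) q (hPs q hqmem) (fun e => hwP (by simp [e]))
          (fun e => hwP (e ▸ hqmem)) hpq with h | h | h
        · exact h1 h
        · exact h2 h
        · exact hqp h.symm
    obtain ⟨w, hw, hwP⟩ : ∃ w ∈ A, w ∉ p :: tl := by
      by_contra h
      push Not at h
      have := card_le_card (s := A) (t := (p :: tl).toFinset) fun z hz => List.mem_toFinset.2 (h z hz)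
      have := List.toFinset_card_le (p :: tl)
      omega
    by_cases haP : a ∈ p :: tl
    · have hbP : b ∈ p :: tl := by
        by_contra h
        exact out b hb h a haP hab.symm
      have hcP : c ∈ p :: tl := by
        by_contra h
        exact out c hc h b hbP hbc.symm
      rcases htri a ha c hc w hw hac (fun e => hwP (e ▸ haP)) (fun e => hwP (e ▸ hcP))
        with h | h | h
      · exact h
      · exact absurd h.symm (out w hw hwP a haP)
      · exact absurd h.symm (out w hw hwP c hcP)
    · have hbP : b ∉ p :: tl := fun h => out a ha haP b h hab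
      have hcP : c ∉ p :: tl := fun h => out b hb hbP c h hbc
      rcases htri a ha c hc p (hPs p (by simp)) hac (fun e => haP (by simp [e]))
        (fun e => hcP (by simp [e])) with h | h | h
      · exact h
      · exact absurd h (out a ha haP p (by simp))
      · exact absurd h (out c hc hcP p (by simp))

/-- A segment of a clique. -/
theorem segment {Q : Finset V} (hQ : ∀ x ∈ Q, ∀ y ∈ Q, x ≠ y → G.Adj x y) {p q : V} (hp : p ∈ Q)
    (hq : q ∈ Q) (hpq : p ≠ q) {k : ℕ} (h1 : 1 ≤ k) (h2 : k + 1 ≤ Q.card) :
    ∃ l : List V, (p :: l).Nodup ∧ (∀ x ∈ p :: l, x ∈ Q ∧ x ≠ q) ∧ (p :: l).IsChain G.Adj ∧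
      (∀ x ∈ p :: l, G.Adj x q) ∧ (p :: l).length = k := by
  have hc : k - 1 ≤ ((Q.erase q).erase p).card := by
    rw [card_erase_of_mem (mem_erase.2 ⟨hpq, hp⟩), card_erase_of_mem hq]
    omega
  obtain ⟨T, hT, hTc⟩ := exists_subset_card_eq hc
  have hn : (p :: T.toList).Nodup :=
    List.nodup_cons.2 ⟨fun h => (mem_erase.1 (hT (mem_toList.1 h))).1 rfl, T.nodup_toList⟩
  have hs : ∀ x ∈ p :: T.toList, x ∈ Q ∧ x ≠ q := by
    intro x hx
    rcases List.mem_cons.1 hx with rfl | hx
    · exact ⟨hp, hpq⟩
    · have := hT (mem_toList.1 hx)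
      simp only [mem_erase] at this
      exact ⟨this.2.2, this.2.1⟩
  exact ⟨T.toList, hn, hs, chain_of_clique hQ hn fun x hx => (hs x hx).1,
    fun x hx => hQ x (hs x hx).1 q hq (hs x hx).2, by simp [hTc]; omega⟩

end Vale.Agent.P048
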