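import Mathlib
import Vale.Agent.P048.Matching
import Vale.Agent.P048.Path

/-!
Cycle-complete Ramsey bound in claw-free graphs.
-/

namespace Vale.Agent.P048

open Finset

variable {V : Type*} [Fintype V] [DecidableEq V] (G : SimpleGraph V) [DecidableRel G.Adj]

/-- No three pairwise nonadjacent neighbours of one vertex. -/
def ClawFree : Prop :=
  ∀ v a b c, G.Adj v a → G.Adj v b → G.Adj v c → a ≠ b → a ≠ c → b ≠ c →
    G.Adj a b ∨ G.Adj a c ∨ G.Adj b c

/-- Neighbours of `v` in `S`. -/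
def nb (S : Finset V) (v : V) : Finset V := S.filter fun w => G.Adj v w

/-- The block through an edge. -/
def blk (S : Finset V) (x u : V) : Finset V :=
  insert x ((nb G S x).filter fun z => z = u ∨ G.Adj z u)

variable {G}

/-- Cliques such that every point is in two of them and every edge in one. -/
structure BlockSys (G : SimpleGraph V) (S : Finset V) (m : ℕ) (B : Finset (Finset V)) : Prop where
  sub : ∀ Q ∈ B, ∀ y ∈ Q, y ∈ S
  adj : ∀ Q ∈ B, ∀ y ∈ Q, ∀ z ∈ Q, y ≠ z → G.Adj y z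
  small : ∀ Q ∈ B, Q.card ≤ m - 1
  share : ∀ Q ∈ B, ∀ R ∈ B, ∀ y ∈ Q, y ∈ R → ∀ z ∈ Q, z ∈ R → Q ≠ R → y = z
  two : ∀ x ∈ S, ∃ Q ∈ B, ∃ R ∈ B, Q ≠ R ∧ x ∈ Q ∧ x ∈ R ∧
    (∀ T ∈ B, x ∈ T → T = Q ∨ T = R) ∧ m + 1 ≤ Q.card + R.card
  triangle : ∀ x ∈ S, ∀ y ∈ S, ∀ z ∈ S, G.Adj x y → G.Adj x z → G.Adj y z →
    ∃ Q ∈ B, x ∈ Q ∧ y ∈ Q ∧ z ∈ Q
  edge : ∀ x ∈ S, ∀ y ∈ S, G.Adj x y → ∃ Q ∈ B, x ∈ Q ∧ y ∈ Q

/-- The graph of blocks. -/
def blockGraph (B : Finset (Finset V)) : SimpleGraph (Finset V) where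
  Adj Q R := Q ≠ R ∧ Q ∈ B ∧ R ∈ B ∧ ∃ x, x ∈ Q ∧ x ∈ R
  symm := ⟨fun Q R ⟨h1, h2, h3, x, h4, h5⟩ => ⟨h1.symm, h3, h2, x, h5, h4⟩⟩
  loopless := ⟨fun Q h => h.1 rfl⟩

/-- Without a cycle of length `m`, neighbourhoods are pairs of cliques, giving a block system. -/
theorem blocks_exist {m : ℕ} (hm : 4 ≤ m) (hclaw : ClawFree G) (S : Finset V)
    (hdeg : ∀ v ∈ S, m - 1 ≤ (nb G S v).card) (hcyc : ¬ Cyc G m) :
    ∃ B : Finset (Finset V), BlockSys G S m B := by
  classical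
  have nb_mem : ∀ {v w}, w ∈ nb G S v ↔ w ∈ S ∧ G.Adj v w := fun {v w} => mem_filter
  -- a path through neighbours closes to a cycle
  have hno : ∀ v, ∀ l : List V, l.Nodup → (∀ x ∈ l, x ∈ nb G S v) →
      l.IsChain G.Adj → l.length ≠ m - 1 := by
    intro v l hl hs hc hlen
    apply hcyc
    refine cyc_of_list (by omega) v l (by rw [List.length_cons]; omega)
      (List.nodup_cons.2 ⟨fun h => (nb_mem.1 (hs v h)).2.ne rfl, hl⟩) ?_ ?_
    · cases l with
      | nil => simp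
      | cons b t => exact List.isChain_cons_cons.2 ⟨(nb_mem.1 (hs b (by simp))).2, hc⟩
    · intro z hz
      have hl0 : l ≠ [] := by rintro rfl; simp at hlen; omega
      rw [List.getLast?_cons_of_ne_nil hl0] at hz
      exact (nb_mem.1 (hs z (List.mem_of_getLast? hz))).2.symm
  have tri : ∀ v, ∀ a ∈ nb G S v, ∀ b ∈ nb G S v, ∀ c ∈ nb G S v, a ≠ b → a ≠ c → b ≠ c →
      G.Adj a b ∨ G.Adj a c ∨ G.Adj b c := fun v a ha b hb c hc =>
    hclaw v a b c (nb_mem.1 ha).2 (nb_mem.1 hb).2 (nb_mem.1 hc).2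
  have trans : ∀ v ∈ S, ∀ a ∈ nb G S v, ∀ b ∈ nb G S v, ∀ c ∈ nb G S v,
      G.Adj a b → G.Adj b c → a ≠ c → G.Adj a c := fun v hv =>
    adj_trans_of_no_path (hdeg v hv) (tri v) (hno v)
  have blk_mem : ∀ {x u z}, z ∈ blk G S x u ↔ z = x ∨ ((z ∈ S ∧ G.Adj x z) ∧ (z = u ∨ G.Adj z u)) := by
    intro x u z
    rw [blk, mem_insert, mem_filter, nb_mem]
  -- (a) change of the second point
  have blk_snd : ∀ x ∈ S, ∀ u ∈ nb G S x, ∀ y ∈ blk G S x u, y ≠ x →
      blk G S x y = blk G S x u := by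
    intro x hx u hu y hy hyx
    obtain ⟨hy1, hy2⟩ := (blk_mem.1 hy).resolve_left hyx
    ext z
    rw [blk_mem, blk_mem]
    apply or_congr_right
    apply and_congr_right
    intro hz
    have hy' : y ∈ nb G S x := nb_mem.2 hy1
    have hz' : z ∈ nb G S x := nb_mem.2 hz
    constructor
    · rintro (rfl | h)
      · exact hy2
      · rcases eq_or_ne z u with rfl | hzu
        · exact Or.inl rfl
        right
        rcases hy2 with rfl | h'
        · exact h
        · exact trans x hx z hz' y hy' u hu h h' hzu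
    · rintro (rfl | h)
      · rcases hy2 with rfl | h'
        · exact Or.inl rfl
        · exact Or.inr h'.symm
      · rcases eq_or_ne z y with rfl | hzy
        · exact Or.inl rfl
        right
        rcases hy2 with rfl | h'
        · exact h
        · exact trans x hx z hz' u hu y hy' h h'.symm hzy
  -- (b) symmetry
  have blk_symm : ∀ x ∈ S, ∀ u ∈ nb G S x, blk G S x u = blk G S u x := by
    intro x hx u hu
    obtain ⟨huS, hxu⟩ := nb_mem.1 hu
    ext z
    rw [blk_mem, blk_mem]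
    constructor
    · rintro (rfl | ⟨⟨hz, hxz⟩, rfl | hzu⟩)
      · exact Or.inr ⟨⟨hx, hxu.symm⟩, Or.inl rfl⟩
      · exact Or.inl rfl
      · exact Or.inr ⟨⟨hz, hzu.symm⟩, Or.inr hxz.symm⟩
    · rintro (rfl | ⟨⟨hz, huz⟩, rfl | hzx⟩)
      · exact Or.inr ⟨⟨huS, hxu⟩, Or.inl rfl⟩
      · exact Or.inl rfl
      · exact Or.inr ⟨⟨hz, hzx.symm⟩, Or.inr huz.symm⟩
  let IsBlk : Finset V → Prop := fun Q => ∃ x ∈ S, ∃ u ∈ nb G S x, Q = blk G S x u
  have blk_self : ∀ x u, x ∈ blk G S x u := fun x u => blk_mem.2 (Or.inl rfl)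
  have blk_other : ∀ x, ∀ u ∈ nb G S x, u ∈ blk G S x u := fun x u hu =>
    blk_mem.2 (Or.inr ⟨nb_mem.1 hu, Or.inl rfl⟩)
  have blk_sub : ∀ {Q}, IsBlk Q → ∀ y ∈ Q, y ∈ S := by
    rintro Q ⟨x, hx, u, hu, rfl⟩ y hy
    rcases blk_mem.1 hy with rfl | h
    · exact hx
    · exact h.1.1
  have blk_adj : ∀ {Q}, IsBlk Q → ∀ y ∈ Q, ∀ z ∈ Q, y ≠ z → G.Adj y z := by
    rintro Q ⟨x, hx, u, hu, rfl⟩ y hy z hz hyz
    rcases blk_mem.1 hy with rfl | ⟨hy1, hy2⟩
    · exact ((blk_mem.1 hz).resolve_left (Ne.symm hyz)).1.2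
    rcases blk_mem.1 hz with rfl | ⟨hz1, hz2⟩
    · exact hy1.2.symm
    rcases hy2 with rfl | hy2 <;> rcases hz2 with rfl | hz2
    · exact absurd rfl hyz
    · exact hz2.symm
    · exact hy2
    · exact trans x hx y (nb_mem.2 hy1) u hu z (nb_mem.2 hz1) hy2 hz2.symm hyz
  have blk_eq : ∀ {Q}, IsBlk Q → ∀ y ∈ Q, ∀ z ∈ Q, y ≠ z → Q = blk G S y z := by
    rintro Q ⟨x, hx, u, hu, rfl⟩ y hy z hz hyz
    rcases eq_or_ne y x with rfl | hyx
    · exact (blk_snd y hx u hu z hz (Ne.symm hyz)).symm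
    have hy' : y ∈ nb G S x := nb_mem.2 ((blk_mem.1 hy).resolve_left hyx).1
    have e1 := blk_snd x hx u hu y hy hyx
    have e2 := blk_symm x hx y hy'
    rcases eq_or_ne z x with rfl | hzx
    · rw [← e2, e1]
    have hx' : x ∈ nb G S y := nb_mem.2 ⟨hx, (nb_mem.1 hy').2.symm⟩
    have hz' : z ∈ blk G S y x := by rw [← e2, e1]; exact hz
    rw [blk_snd y (nb_mem.1 hy').1 x hx' z hz' (Ne.symm hyz), ← e2, e1]
  have share : ∀ {Q R}, IsBlk Q → IsBlk R → ∀ y ∈ Q, y ∈ R → ∀ z ∈ Q, z ∈ R → Q ≠ R → y = z := by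
    intro Q R hQ hR y hy hy' z hz hz' hne
    by_contra hyz
    exact hne ((blk_eq hQ y hy z hz hyz).trans (blk_eq hR y hy' z hz' hyz).symm)
  have small : ∀ {Q}, IsBlk Q → Q.card ≤ m - 1 := by
    intro Q hQ
    by_contra h
    exact hcyc (cyc_of_clique (by omega) (fun x hx y hy => blk_adj hQ x hx y hy) (by omega))
  -- the two blocks through a point
  have two : ∀ x ∈ S, ∃ u ∈ nb G S x, ∃ v ∈ nb G S x, blk G S x u ≠ blk G S x v ∧
      (∀ Q, IsBlk Q → x ∈ Q → Q = blk G S x u ∨ Q = blk G S x v) ∧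
      m + 1 ≤ (blk G S x u).card + (blk G S x v).card := by
    intro x hx
    have hd := hdeg x hx
    obtain ⟨u, hu, v, hv, huv, hnadj⟩ :
        ∃ u ∈ nb G S x, ∃ v ∈ nb G S x, u ≠ v ∧ ¬ G.Adj u v := by
      by_contra h
      push Not at h
      apply hcyc
      refine cyc_of_clique (by omega) (Q := insert x (nb G S x)) ?_ ?_
      · intro a ha b hb hab
        rcases mem_insert.1 ha with rfl | ha <;> rcases mem_insert.1 hb with rfl | hb
        · exact absurd rfl hab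
        · exact (nb_mem.1 hb).2
        · exact (nb_mem.1 ha).2.symm
        · exact h a ha b hb hab
      · rw [card_insert_of_notMem fun h' => (nb_mem.1 h').2.ne rfl]
        omega
    have cover : ∀ w ∈ nb G S x, w ∈ blk G S x u ∨ w ∈ blk G S x v := by
      intro w hw
      rcases eq_or_ne w u with rfl | hwu
      · exact Or.inl (blk_other x w hw)
      rcases eq_or_ne w v with rfl | hwv
      · exact Or.inr (blk_other x w hw)
      rcases tri x w hw u hu v hv hwu hwv huv with h | h | h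
      · exact Or.inl (blk_mem.2 (Or.inr ⟨nb_mem.1 hw, Or.inr h⟩))
      · exact Or.inr (blk_mem.2 (Or.inr ⟨nb_mem.1 hw, Or.inr h⟩))
      · exact absurd h hnadj
    have hne : blk G S x u ≠ blk G S x v := by
      intro e
      exact hnadj (blk_adj ⟨x, hx, u, hu, rfl⟩ u (blk_other x u hu) v (e ▸ blk_other x v hv) huv)
    refine ⟨u, hu, v, hv, hne, ?_, ?_⟩
    · intro Q hQ hxQ
      obtain ⟨y, hy, w, hw, rfl⟩ := hQ
      obtain ⟨t, ht, htx⟩ : ∃ t ∈ blk G S y w, t ≠ x := by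
        rcases eq_or_ne y x with rfl | h
        · exact ⟨w, blk_other y w hw, (nb_mem.1 hw).2.ne.symm⟩
        · exact ⟨y, blk_self y w, h⟩
      have hQ : IsBlk (blk G S y w) := ⟨y, hy, w, hw, rfl⟩
      have e := blk_eq hQ x hxQ t ht (Ne.symm htx)
      have ht' : t ∈ nb G S x := nb_mem.2 ⟨blk_sub hQ t ht, blk_adj hQ x hxQ t ht (Ne.symm htx)⟩
      rw [e]
      rcases cover t ht' with h | h
      · exact Or.inl (blk_snd x hx u hu t h htx)
      · exact Or.inr (blk_snd x hx v hv t h htx)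
    · have hun : insert x (nb G S x) ⊆ blk G S x u ∪ blk G S x v := by
        intro w hw
        rcases mem_insert.1 hw with rfl | hw
        · exact mem_union_left _ (blk_self _ _)
        · exact mem_union.2 (cover w hw)
      have hxi : x ∈ blk G S x u ∩ blk G S x v := mem_inter.2 ⟨blk_self _ _, blk_self _ _⟩
      have := card_le_card hun
      rw [card_insert_of_notMem fun h' => (nb_mem.1 h').2.ne rfl] at this
      have := card_union_add_card_inter (blk G S x u) (blk G S x v)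
      have := card_pos.2 ⟨x, hxi⟩
      omega
  refine ⟨univ.filter IsBlk, ?_⟩
  constructor
  · exact fun Q hQ => blk_sub (mem_filter.1 hQ).2
  · exact fun Q hQ => blk_adj (mem_filter.1 hQ).2
  · exact fun Q hQ => small (mem_filter.1 hQ).2
  · exact fun Q hQ R hR => share (mem_filter.1 hQ).2 (mem_filter.1 hR).2
  · intro x hx
    obtain ⟨u, hu, v, hv, hne, hall, hcard⟩ := two x hx
    exact ⟨_, mem_filter.2 ⟨mem_univ _, x, hx, u, hu, rfl⟩, _,
      mem_filter.2 ⟨mem_univ _, x, hx, v, hv, rfl⟩, hne, blk_self x u, blk_self x v,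
      fun Q hQ => hall Q (mem_filter.1 hQ).2, hcard⟩
  · intro x hx y hy z hz hxy hxz hyz
    have hy' : y ∈ nb G S x := nb_mem.2 ⟨hy, hxy⟩
    exact ⟨_, mem_filter.2 ⟨mem_univ _, x, hx, y, hy', rfl⟩, blk_self x y, blk_other x y hy',
      blk_mem.2 (Or.inr ⟨⟨hz, hxz⟩, Or.inr hyz.symm⟩)⟩
  · intro x hx y hy hxy
    have hy' : y ∈ nb G S x := nb_mem.2 ⟨hy, hxy⟩
    exact ⟨_, mem_filter.2 ⟨mem_univ _, x, hx, y, hy', rfl⟩, blk_self x y, blk_other x y hy'⟩

omit [Fintype V] [DecidableEq V] [DecidableRel G.Adj] in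
theorem BlockSys.noThree {m : ℕ} {S : Finset V} {B : Finset (Finset V)} (h : BlockSys G S m B)
    {x : V} {Q R T : Finset V} (hQ : Q ∈ B) (hR : R ∈ B) (hT : T ∈ B) (xQ : x ∈ Q) (xR : x ∈ R)
    (xT : x ∈ T) (h1 : Q ≠ R) (h2 : Q ≠ T) (h3 : R ≠ T) : False := by
  obtain ⟨U, -, W, -, -, -, -, hall, -⟩ := h.two x (h.sub Q hQ x xQ)
  rcases hall Q hQ xQ with rfl | rfl <;> rcases hall R hR xR with rfl | rfl <;>
    rcases hall T hT xT with rfl | rfl <;> simp_all

omit [Fintype V] [DecidableRel G.Adj] in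
theorem BlockSys.tri {m : ℕ} {S : Finset V} {B : Finset (Finset V)} (h : BlockSys G S m B)
    (Q R T : Finset V) (e1 : (blockGraph B).Adj Q R) (e2 : (blockGraph B).Adj R T)
    (e3 : (blockGraph B).Adj Q T) : False := by
  obtain ⟨h1, hQ, hR, x, xQ, xR⟩ := e1
  obtain ⟨h2, -, hT, y, yR, yT⟩ := e2
  obtain ⟨h3, -, -, z, zQ, zT⟩ := e3
  have hxy : x ≠ y := by rintro rfl; exact h.noThree hQ hR hT xQ xR yT h1 h3 h2
  have hxz : x ≠ z := by rintro rfl; exact h.noThree hQ hR hT xQ xR zT h1 h3 h2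
  have hyz : y ≠ z := by rintro rfl; exact h.noThree hQ hR hT zQ yR yT h1 h3 h2
  obtain ⟨P, hP, xP, yP, zP⟩ := h.triangle x (h.sub Q hQ x xQ) y (h.sub R hR y yR)
    z (h.sub Q hQ z zQ) (h.adj R hR x xR y yR hxy) (h.adj Q hQ x xQ z zQ hxz)
    (h.adj T hT y yT z zT hyz)
  have eQ : Q = P := by
    by_contra e
    exact hxz (h.share Q hQ P hP x xQ xP z zQ zP e)
  have eR : R = P := by
    by_contra e
    exact hxy (h.share R hR P hP x xR xP y yR yP e)
  exact h1 (eQ.trans eR.symm)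

omit [Fintype V] [DecidableRel G.Adj] in
/-- A four-cycle of blocks gives a cycle of length `m`. -/
theorem BlockSys.four {m : ℕ} (hm : 4 ≤ m) {S : Finset V} {B₀ : Finset (Finset V)}
    (h : BlockSys G S m B₀) (A B C D : Finset V) (hAB : A ≠ B) (hCD : C ≠ D)
    (hac : (blockGraph B₀).Adj A C) (hbc : (blockGraph B₀).Adj B C)
    (had : (blockGraph B₀).Adj A D) (hbd : (blockGraph B₀).Adj B D) : Cyc G m := by
  obtain ⟨nAC, hA, hC, p, pA, pC⟩ := hac
  obtain ⟨nBC, hB, -, q, qB, qC⟩ := hbc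
  obtain ⟨nAD, -, hD, s, sA, sD⟩ := had
  obtain ⟨nBD, -, -, r, rB, rD⟩ := hbd
  have dAB : ∀ x ∈ A, x ∉ B := fun x xA xB =>
    h.tri A B C ⟨hAB, hA, hB, x, xA, xB⟩ ⟨nBC, hB, hC, q, qB, qC⟩ ⟨nAC, hA, hC, p, pA, pC⟩
  have dCD : ∀ x ∈ C, x ∉ D := fun x xC xD =>
    h.tri A C D ⟨nAC, hA, hC, p, pA, pC⟩ ⟨hCD, hC, hD, x, xC, xD⟩ ⟨nAD, hA, hD, s, sA, sD⟩
  have npq : p ≠ q := by rintro rfl; exact dAB p pA qB
  have nqr : q ≠ r := by rintro rfl; exact dCD q qC rD
  have nrs : r ≠ s := by rintro rfl; exact dAB r sA rB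
  have nsp : s ≠ p := by rintro rfl; exact dCD s pC sD
  have sum1 : m + 1 ≤ A.card + C.card := by
    obtain ⟨U, -, W, -, -, -, -, hall, hcard⟩ := h.two p (h.sub A hA p pA)
    rcases hall A hA pA with rfl | rfl <;> rcases hall C hC pC with rfl | rfl <;>
      first | omega | exact absurd rfl nAC
  have sum2 : m + 1 ≤ B.card + D.card := by
    obtain ⟨U, -, W, -, -, -, -, hall, hcard⟩ := h.two r (h.sub B hB r rB)
    rcases hall B hB rB with rfl | rfl <;> rcases hall D hD rD with rfl | rfl <;>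
      first | omega | exact absurd rfl nBD
  have a2 : 2 ≤ A.card := card_pair nsp ▸ card_le_card (by simp [insert_subset_iff, sA, pA])
  have b2 : 2 ≤ B.card := card_pair nqr ▸ card_le_card (by simp [insert_subset_iff, qB, rB])
  have c2 : 2 ≤ C.card := card_pair npq ▸ card_le_card (by simp [insert_subset_iff, pC, qC])
  have d2 : 2 ≤ D.card := card_pair nrs ▸ card_le_card (by simp [insert_subset_iff, rD, sD])
  obtain ⟨k1, k2, k3, k4, g1, g2, g3, g4, g1', g2', g3', g4', gs⟩ :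
      ∃ k1 k2 k3 k4, 1 ≤ k1 ∧ 1 ≤ k2 ∧ 1 ≤ k3 ∧ 1 ≤ k4 ∧ k1 + 1 ≤ C.card ∧ k2 + 1 ≤ B.card ∧
        k3 + 1 ≤ D.card ∧ k4 + 1 ≤ A.card ∧ k1 + k2 + k3 + k4 = m := by
    have := h.small A hA
    refine ⟨min (C.card - 1) (m - 3), min (B.card - 1) (m - 2 - min (C.card - 1) (m - 3)),
      min (D.card - 1) (m - 1 - min (C.card - 1) (m - 3)
        - min (B.card - 1) (m - 2 - min (C.card - 1) (m - 3))),
      m - min (C.card - 1) (m - 3) - min (B.card - 1) (m - 2 - min (C.card - 1) (m - 3))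
        - min (D.card - 1) (m - 1 - min (C.card - 1) (m - 3)
          - min (B.card - 1) (m - 2 - min (C.card - 1) (m - 3))),
      ?_, ?_, ?_, ?_, ?_, ?_, ?_, ?_, ?_⟩ <;> omega
  obtain ⟨l1, n1, m1, c1, a1, e1⟩ := segment (h.adj C hC) pC qC npq g1 g1'
  obtain ⟨l2, n2, m2, c2', a2', e2⟩ := segment (h.adj B hB) qB rB nqr g2 g2'
  obtain ⟨l3, n3, m3, c3, a3, e3⟩ := segment (h.adj D hD) rD sD nrs g3 g3'
  obtain ⟨l4, n4, m4, c4, a4, e4⟩ := segment (h.adj A hA) sA pA nsp g4 g4'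
  have hall : (p :: (l1 ++ (q :: l2) ++ (r :: l3) ++ (s :: l4)))
      = (p :: l1) ++ (q :: l2) ++ (r :: l3) ++ (s :: l4) := by simp
  refine cyc_of_list (by omega) p (l1 ++ (q :: l2) ++ (r :: l3) ++ (s :: l4)) ?_ ?_ ?_ ?_
  · rw [hall]
    simp only [List.length_append]
    omega
  · rw [hall]
    simp only [List.nodup_append, n1, n2, n3, n4, true_and, List.mem_append]
    have x12 : ∀ x ∈ p :: l1, ∀ y ∈ q :: l2, x ≠ y := by
      rintro x hx _ hy rfl
      exact (m1 x hx).2 (h.share C hC B hB x (m1 x hx).1 (m2 x hy).1 q qC qB nBC.symm)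
    have x13 : ∀ x ∈ p :: l1, ∀ y ∈ r :: l3, x ≠ y := by
      rintro x hx _ hy rfl
      exact dCD x (m1 x hx).1 (m3 x hy).1
    have x14 : ∀ x ∈ p :: l1, ∀ y ∈ s :: l4, x ≠ y := by
      rintro x hx _ hy rfl
      exact (m4 x hy).2 (h.share A hA C hC x (m4 x hy).1 (m1 x hx).1 p pA pC nAC)
    have x23 : ∀ x ∈ q :: l2, ∀ y ∈ r :: l3, x ≠ y := by
      rintro x hx _ hy rfl
      exact (m2 x hx).2 (h.share B hB D hD x (m2 x hx).1 (m3 x hy).1 r rB rD nBD)
    have x24 : ∀ x ∈ q :: l2, ∀ y ∈ s :: l4, x ≠ y := by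
      rintro x hx _ hy rfl
      exact dAB x (m4 x hy).1 (m2 x hx).1
    have x34 : ∀ x ∈ r :: l3, ∀ y ∈ s :: l4, x ≠ y := by
      rintro x hx _ hy rfl
      exact (m3 x hx).2 (h.share D hD A hA x (m3 x hx).1 (m4 x hy).1 s sD sA nAD.symm)
    refine ⟨⟨x12, ?_⟩, ?_⟩
    · rintro x (hx | hx) y hy
      · exact x13 x hx y hy
      · exact x23 x hx y hy
    · rintro x ((hx | hx) | hx) y hy
      · exact x14 x hx y hy
      · exact x24 x hx y hy
      · exact x34 x hx y hy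
  · rw [hall]
    simp only [List.isChain_append, c1, c2', c3, c4, List.head?_cons, Option.mem_some,
      forall_eq', true_and]
    refine ⟨⟨fun x hx => a1 x (List.mem_of_getLast? hx), fun x hx => ?_⟩, fun x hx => ?_⟩
    · rw [List.getLast?_append_of_ne_nil _ (by simp)] at hx
      exact a2' x (List.mem_of_getLast? hx)
    · rw [List.getLast?_append_of_ne_nil _ (by simp)] at hx
      exact a3 x (List.mem_of_getLast? hx)
  · intro z hz
    rw [hall, List.getLast?_append_of_ne_nil _ (by simp)] at hz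
    exact a4 z (List.mem_of_getLast? hz)

omit [Fintype V] [DecidableEq V] [DecidableRel G.Adj] in
/-- The points of a block correspond to its neighbours. -/
theorem BlockSys.degree {m : ℕ} {S : Finset V} {B : Finset (Finset V)} (h : BlockSys G S m B)
    [DecidableRel (blockGraph B).Adj] {Q : Finset V} (hQ : Q ∈ B) :
    dg (blockGraph B) B Q = Q.card := by
  have other : ∀ x ∈ Q, ∃ R, (blockGraph B).Adj Q R ∧ x ∈ R ∧
      ∀ R', (blockGraph B).Adj Q R' → x ∈ R' → R' = R := by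
    intro x hx
    obtain ⟨U, hU, W, hW, hne, xU, xW, hall, -⟩ := h.two x (h.sub Q hQ x hx)
    rcases hall Q hQ hx with rfl | rfl
    · refine ⟨W, ⟨hne, hU, hW, x, hx, xW⟩, xW, ?_⟩
      rintro R' ⟨hne', -, hR', -⟩ hxR
      exact (hall R' hR' hxR).resolve_left (Ne.symm hne')
    · refine ⟨U, ⟨hne.symm, hW, hU, x, hx, xU⟩, xU, ?_⟩
      rintro R' ⟨hne', -, hR', -⟩ hxR
      exact (hall R' hR' hxR).resolve_right (Ne.symm hne')
  choose oth hoth1 hoth2 hoth3 using other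
  symm
  apply card_bij (fun x hx => oth x hx)
  · exact fun x hx => mem_filter.2 ⟨(hoth1 x hx).2.2.1, hoth1 x hx⟩
  · exact fun x hx y hy e => h.share Q hQ _ (hoth1 x hx).2.2.1 x hx (hoth2 x hx) y hy
      (e ▸ hoth2 y hy) (hoth1 x hx).1
  · intro R hR
    obtain ⟨-, hR⟩ := mem_filter.1 hR
    obtain ⟨x, hxQ, hxR⟩ := hR.2.2.2
    exact ⟨x, hxQ, (hoth3 x hxQ R hR hxR).symm⟩

omit [DecidableRel G.Adj] in
theorem BlockSys.degree_le {m : ℕ} {S : Finset V} {B : Finset (Finset V)} (h : BlockSys G S m B)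
    [DecidableRel (blockGraph B).Adj] (X : Finset (Finset V)) (Q : Finset V) :
    dg (blockGraph B) X Q ≤ m - 1 := by
  by_cases hQ : Q ∈ B
  · refine le_trans (le_of_le_of_eq ?_ (h.degree hQ)) (h.small Q hQ)
    apply card_le_card
    intro R hR
    obtain ⟨-, hR⟩ := mem_filter.1 hR
    exact mem_filter.2 ⟨hR.2.2.1, hR⟩
  · have : dg (blockGraph B) X Q = 0 :=
      card_eq_zero.2 (filter_false_of_mem fun R _ h' => hQ h'.2.1)
    omega

omit [DecidableRel G.Adj] in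
theorem BlockSys.matching {m n : ℕ} {S : Finset V} {B : Finset (Finset V)} (h : BlockSys G S m B)
    (hind : ∀ T ⊆ S, (∀ x ∈ T, ∀ y ∈ T, ¬ G.Adj x y) → T.card < n)
    (X : Finset (Finset V)) (f : Finset V → Finset V) (hf : Mat (blockGraph B) X f) :
    mv f ≤ 2 * (n - 1) := by
  classical
  let T := S.filter fun x => ∃ Q, f Q ≠ Q ∧ x ∈ Q ∧ x ∈ f Q
  have hpair : ∀ Q, f Q ≠ Q → ∀ x ∈ Q, x ∈ f Q → ∀ P ∈ B, x ∈ P → P = Q ∨ P = f Q := by
    intro Q hQ x h1 h2 P hP h3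
    obtain ⟨-, hb1, hb2, -⟩ := ((hf Q).2 hQ).2
    by_contra hne
    push Not at hne
    exact h.noThree hP hb1 hb2 h3 h1 h2 hne.1 hne.2 (Ne.symm hQ)
  have hTind : ∀ x ∈ T, ∀ y ∈ T, ¬ G.Adj x y := by
    intro x hx y hy hxy
    obtain ⟨hxS, Q, hQ, xQ, xQ'⟩ := mem_filter.1 hx
    obtain ⟨hyS, R, hR, yR, yR'⟩ := mem_filter.1 hy
    obtain ⟨P, hP, xP, yP⟩ := h.edge x hxS y hyS hxy
    obtain ⟨nQ, bQ, bQ', -⟩ := ((hf Q).2 hQ).2
    have hcase : y ∈ Q ∧ y ∈ f Q := by
      rcases hpair Q hQ x xQ xQ' P hP xP with e | e <;>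
        rcases hpair R hR y yR yR' P hP yP with e' | e'
      · have hQR := e.symm.trans e'
        exact ⟨hQR ▸ yR, hQR ▸ yR'⟩
      · have hQR := e.symm.trans e'
        exact ⟨hQR ▸ yR', by rw [hQR, (hf R).1]; exact yR⟩
      · have hQR := e.symm.trans e'
        have : Q = f R := by rw [← hQR, (hf Q).1]
        exact ⟨this ▸ yR', hQR ▸ yR⟩
      · have hQR := e.symm.trans e'
        have : Q = R := by rw [← (hf Q).1, hQR, (hf R).1]
        exact ⟨this ▸ yR, this ▸ yR'⟩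
    exact hxy.ne (h.share Q bQ _ bQ' x xQ xQ' y hcase.1 hcase.2 nQ)
  have hT := hind T (filter_subset _ _) hTind
  calc mv f ≤ (T.biUnion fun x => B.filter fun Q => x ∈ Q).card := by
        apply card_le_card
        intro Q hQ
        simp only [mem_filter, mem_univ, true_and] at hQ
        obtain ⟨-, bQ, -, x, xQ, xQ'⟩ := ((hf Q).2 hQ).2
        exact mem_biUnion.2 ⟨x, mem_filter.2 ⟨h.sub Q bQ x xQ, Q, hQ, xQ, xQ'⟩,
          mem_filter.2 ⟨bQ, xQ⟩⟩
    _ ≤ T.card * 2 := card_biUnion_le_card_mul _ _ _ fun x hx => by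
        obtain ⟨U, -, W, -, -, -, -, hall, -⟩ := h.two x (mem_filter.1 hx).1
        refine (card_le_card ?_).trans (card_le_two (a := U) (b := W))
        intro Q hQ
        obtain ⟨hQ, hxQ⟩ := mem_filter.1 hQ
        simpa using hall Q hQ hxQ
    _ ≤ 2 * (n - 1) := by omega

/-- The case of minimum degree at least `m - 1`. -/
theorem cliques_core {m n : ℕ} (hm : 4 ≤ m) (hn : 2 ≤ n) (hnm : n ≤ m) (hclaw : ClawFree G)
    (S : Finset V) (hS : (m - 1) * (n - 1) < S.card)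
    (hind : ∀ T ⊆ S, (∀ x ∈ T, ∀ y ∈ T, ¬ G.Adj x y) → T.card < n)
    (hdeg : ∀ v ∈ S, m - 1 ≤ (nb G S v).card) : Cyc G m := by
  classical
  by_contra hcyc
  obtain ⟨B, h⟩ := blocks_exist hm hclaw S hdeg hcyc
  have hc4 : ∀ a b c d, a ≠ b → (blockGraph B).Adj a c → (blockGraph B).Adj b c →
      (blockGraph B).Adj a d → (blockGraph B).Adj b d → c = d := by
    intro a b c d hab h1 h2 h3 h4
    by_contra hcd
    exact hcyc (h.four hm a b c d hab hcd h1 h2 h3 h4)
  obtain ⟨f, hf, hle⟩ := edge_bound (D := m - 1) (by omega) h.tri hc4 h.degree_le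
    (fun X f hf => (h.matching hind X f hf).trans (by omega)) B
  have hsum : 2 * S.card ≤ ∑ Q ∈ B, dg (blockGraph B) B Q := by
    calc 2 * S.card = ∑ x ∈ S, 2 := by rw [sum_const, smul_eq_mul, mul_comm]
      _ ≤ ∑ x ∈ S, (B.filter fun Q => x ∈ Q).card := sum_le_sum fun x hx => by
          obtain ⟨U, hU, W, hW, hne, xU, xW, -, -⟩ := h.two x hx
          refine (card_pair hne).symm.le.trans (card_le_card ?_)
          simp [insert_subset_iff, hU, hW, xU, xW]
      _ = ∑ x ∈ S, ∑ Q ∈ B, if x ∈ Q then 1 else 0 :=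
          sum_congr rfl fun x _ => card_filter _ _
      _ = ∑ Q ∈ B, ∑ x ∈ S, if x ∈ Q then 1 else 0 := sum_comm
      _ ≤ ∑ Q ∈ B, dg (blockGraph B) B Q := sum_le_sum fun Q hQ => by
          rw [h.degree hQ, sum_boole, Nat.cast_id]
          exact card_le_card fun x hx => (mem_filter.1 hx).2
  have h1 := Nat.mul_le_mul_left (m - 1) (h.matching hind B f hf)
  have h2 : (m - 1) * (2 * (n - 1)) = 2 * ((m - 1) * (n - 1)) := by ring
  omega

/-- A claw-free graph with more than `(m - 1) * (n - 1)` points and no independent `n`-set has a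
cycle of length `m`. -/
theorem ramsey_core {m : ℕ} (hm : 4 ≤ m) (hclaw : ClawFree G) :
    ∀ n, 2 ≤ n → n ≤ m → ∀ S : Finset V, (m - 1) * (n - 1) < S.card →
      (∀ T ⊆ S, (∀ x ∈ T, ∀ y ∈ T, ¬ G.Adj x y) → T.card < n) → Cyc G m := by
  intro n hn
  induction n, hn using Nat.le_induction with
  | base =>
    intro _ S hS hind
    refine cyc_of_clique (by omega) (Q := S) ?_ (by omega)
    intro x hx y hy hxy
    by_contra h
    have := hind {x, y} (by simp [insert_subset_iff, hx, hy]) (by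
      intro a ha b hb
      simp only [mem_insert, mem_singleton] at ha hb
      rcases ha with rfl | rfl <;> rcases hb with rfl | rfl
      · exact G.irrefl
      · exact h
      · exact fun h' => h h'.symm
      · exact G.irrefl)
    rw [card_pair hxy] at this
    omega
  | succ n hn ih =>
    intro hnm S hS hind
    by_cases hdeg : ∀ v ∈ S, m - 1 ≤ (nb G S v).card
    · exact cliques_core hm (by omega) hnm hclaw S hS hind hdeg
    push Not at hdeg
    obtain ⟨v, hv, hlow⟩ := hdeg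
    refine ih (by omega) (S \ insert v (nb G S v)) ?_ ?_
    · have h1 := le_card_sdiff (insert v (nb G S v)) S
      have h2 := card_insert_le v (nb G S v)
      have h3 : (m - 1) * (n + 1 - 1) = (m - 1) * (n - 1) + (m - 1) := by
        obtain ⟨j, rfl⟩ : ∃ j, n = j + 1 := ⟨n - 1, by omega⟩
        simp [Nat.mul_succ]
      omega
    · intro T hT hTi
      have hvT : v ∉ T := fun h => (mem_sdiff.1 (hT h)).2 (mem_insert_self _ _)
      have hnv : ∀ x ∈ T, ¬ G.Adj v x := fun x hx h =>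
        (mem_sdiff.1 (hT hx)).2 (mem_insert_of_mem (mem_filter.2 ⟨(mem_sdiff.1 (hT hx)).1, h⟩))
      have := hind (insert v T) (insert_subset hv (hT.trans sdiff_subset)) (by
        intro a ha b hb
        rcases mem_insert.1 ha with rfl | ha' <;> rcases mem_insert.1 hb with rfl | hb'
        · exact G.irrefl
        · exact hnv b hb'
        · exact fun h => hnv a ha' h.symm
        · exact hTi a ha' b hb')
      rw [card_insert_of_notMem hvT] at this
      omega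

end Vale.Agent.P048
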